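import Mathlib
import Vale.Agent.Lib.P248.helper1.ConeAux

/-!
Volume of a cone over a base `D`: at most `(h / (n + 1))` times the volume of the base
(pool job 426, the reverse of the lower bound).  The section of the cone at height `t` is empty
for `t` outside `[0, h]` and is contained in the image of `D` under the homothety with centre
`c` and ratio `1 - t / h` for `t` in `[0, h]`.
-/

namespace Vale.Agent.Lib.P248.H22

open MeasureTheory Set
open scoped ENNReal
open Vale.Agent.Lib.P227 Vale.Agent.Lib.P248.H1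

/-- A point of the section at height `t` of the cone: `t` lies in `[0, h]` and the point is the
image of a point of `D` under the homothety with centre `c` and ratio `1 - t / h`. -/
theorem sec_coneE_subset {n : ℕ} (D : Set (EuclideanSpace ℝ (Fin n)))
    (c : EuclideanSpace ℝ (Fin n)) (h : ℝ) (hh : 0 < h) (t : ℝ)
    (w : EuclideanSpace ℝ (Fin n)) (hw : w ∈ sec t (coneE D c h)) :
    t ∈ Icc (0:ℝ) h ∧ w ∈ (AffineMap.homothety c (1 - t / h)) '' D := by
  have hw2 : ecomb t w ∈ coneE D c h := hw
  obtain ⟨d, hd, r, hr0, hr1, hx⟩ := hw2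
  have h0 : t = r * h := by
    have e := congrArg (fun x : EuclideanSpace ℝ (Fin (n + 1)) => x 0) hx
    simp only [ecomb_zero] at e
    exact e
  have hw' : w = (1 - r) • d + r • c := by
    have e := congrArg etail hx
    rwa [etail_ecomb, etail_ecomb] at e
  have hr : t / h = r := by
    rw [h0]
    exact mul_div_cancel_right₀ r hh.ne'
  refine ⟨⟨?_, ?_⟩, d, hd, ?_⟩
  · rw [h0]
    exact mul_nonneg hr0 hh.le
  · rw [h0]
    calc r * h ≤ 1 * h := mul_le_mul_of_nonneg_right hr1 hh.le
      _ = h := one_mul h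
  · rw [hw', hr, AffineMap.homothety_apply]
    simp only [vsub_eq_sub, vadd_eq_add]
    module

theorem volume_sec_coneE_le {n : ℕ} (D : Set (EuclideanSpace ℝ (Fin n)))
    (c : EuclideanSpace ℝ (Fin n)) (h : ℝ) (hh : 0 < h) (t : ℝ) :
    volume (sec t (coneE D c h)) ≤
      (Icc (0:ℝ) h).indicator (fun s : ℝ => ENNReal.ofReal ((1 - s / h) ^ n) * volume D) t := by
  by_cases ht : t ∈ Icc (0:ℝ) h
  · rw [indicator_of_mem ht]
    have hsub : sec t (coneE D c h) ⊆ (AffineMap.homothety c (1 - t / h)) '' D :=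
      fun w hw => (sec_coneE_subset D c h hh t w hw).2
    have h1 : t / h ≤ 1 := (div_le_one hh).mpr ht.2
    calc volume (sec t (coneE D c h))
        ≤ volume ((AffineMap.homothety c (1 - t / h)) '' D) := measure_mono hsub
      _ = ENNReal.ofReal ((1 - t / h) ^ n) * volume D := by
        rw [Measure.addHaar_image_homothety, finrank_euclideanSpace_fin,
          abs_of_nonneg (pow_nonneg (by linarith) n)]
  · rw [indicator_of_notMem ht]
    have hempty : sec t (coneE D c h) = ∅ := by
      apply Set.eq_empty_of_forall_notMem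
      intro w hw
      exact ht (sec_coneE_subset D c h hh t w hw).1
    rw [hempty, measure_empty]

theorem lintegral_cone_profile_Icc (n : ℕ) (h : ℝ) (hh : 0 < h) :
    ∫⁻ t in Icc (0:ℝ) h, ENNReal.ofReal ((1 - t / h) ^ n) = ENNReal.ofReal (h / (n + 1)) := by
  have hcont : Continuous (fun t : ℝ => (1 - t / h) ^ n) := by fun_prop
  have hint : IntegrableOn (fun t : ℝ => (1 - t / h) ^ n) (Icc (0:ℝ) h) :=
    hcont.integrableOn_Icc
  have hnn : 0 ≤ᵐ[volume.restrict (Icc (0:ℝ) h)] (fun t : ℝ => (1 - t / h) ^ n) := by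
    refine (ae_restrict_iff' measurableSet_Icc).mpr (Filter.Eventually.of_forall fun t ht => ?_)
    have h1 : t / h ≤ 1 := (div_le_one hh).mpr ht.2
    exact pow_nonneg (by linarith) n
  rw [← ofReal_integral_eq_lintegral_ofReal hint hnn]
  congr 1
  rw [integral_Icc_eq_integral_Ioc, ← intervalIntegral.integral_of_le hh.le]
  have hderiv : ∀ x ∈ uIcc (0:ℝ) h,
      HasDerivAt (fun t : ℝ => -(h / (n + 1)) * (1 - t / h) ^ (n + 1)) ((1 - x / h) ^ n) x := by
    intro x _
    have h1 : HasDerivAt (fun t : ℝ => 1 - t / h) (-(1 / h)) x := by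
      have h0 := ((hasDerivAt_id x).div_const h).const_sub 1
      simpa using h0
    have h2 : HasDerivAt (fun t : ℝ => -(h / (n + 1)) * (1 - t / h) ^ (n + 1))
        (-(h / (n + 1)) * (((n + 1 : ℕ) : ℝ) * (1 - x / h) ^ (n + 1 - 1) * -(1 / h))) x :=
      (h1.pow (n + 1)).const_mul (-(h / (n + 1)))
    refine h2.congr_deriv ?_
    have hn : (n : ℝ) + 1 ≠ 0 := by positivity
    rw [Nat.add_sub_cancel]
    push_cast
    field_simp
  rw [intervalIntegral.integral_eq_sub_of_hasDerivAt hderiv (hcont.intervalIntegrable _ _)]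
  have h0 : (1 - h / h) = 0 := by rw [div_self hh.ne', sub_self]
  rw [h0]
  simp

theorem vol_cone_le {n : ℕ} (D : Set (EuclideanSpace ℝ (Fin n))) (c : EuclideanSpace ℝ (Fin n))
    (h : ℝ) (hh : 0 < h) (hK : MeasurableSet (coneE D c h)) :
    volume (coneE D c h) ≤ ENNReal.ofReal (h / (n + 1)) * volume D := by
  have hmf : Measurable (fun t : ℝ => ENNReal.ofReal ((1 - t / h) ^ n)) := by fun_prop
  rw [volume_eq_lintegral_sec hK]
  calc ∫⁻ t, volume (sec t (coneE D c h))
      ≤ ∫⁻ t, (Icc (0:ℝ) h).indicator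
          (fun s : ℝ => ENNReal.ofReal ((1 - s / h) ^ n) * volume D) t :=
        lintegral_mono (fun t => volume_sec_coneE_le D c h hh t)
    _ = ∫⁻ t in Icc (0:ℝ) h, ENNReal.ofReal ((1 - t / h) ^ n) * volume D :=
        lintegral_indicator measurableSet_Icc _
    _ = (∫⁻ t in Icc (0:ℝ) h, ENNReal.ofReal ((1 - t / h) ^ n)) * volume D :=
        lintegral_mul_const _ hmf
    _ = ENNReal.ofReal (h / (n + 1)) * volume D := by rw [lintegral_cone_profile_Icc n h hh]

end Vale.Agent.Lib.P248.H22
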