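import Mathlib
import Vale.Agent.Lib.P248.helper1.ConeDefs

/-!
Two small facts for the volume product (pool job 436): the polar set of any set about any point
is closed, hence measurable; and `(n + 1)^(n + 1) ≤ 4^n * n!` for every natural number `n`.
-/

namespace Vale.Agent.Lib.P248.H22Y

open MeasureTheory Set
open scoped ENNReal
open Vale.Agent.Lib.P248.H1

theorem isClosed_polarAt {m : ℕ} (S : Set (EuclideanSpace ℝ (Fin m)))
    (z : EuclideanSpace ℝ (Fin m)) : IsClosed (polarAt S z) := by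
  have h : polarAt S z = ⋂ x ∈ S, {y : EuclideanSpace ℝ (Fin m) | inner ℝ (x - z) y ≤ 1} := by
    apply Set.ext
    intro y
    constructor
    · intro hy
      exact Set.mem_iInter₂.mpr fun x hx => hy x hx
    · intro hy x hx
      exact Set.mem_iInter₂.mp hy x hx
  rw [h]
  exact isClosed_biInter fun x _ =>
    isClosed_le (continuous_const.inner continuous_id) continuous_const

theorem measurableSet_polarAt {m : ℕ} (S : Set (EuclideanSpace ℝ (Fin m)))
    (z : EuclideanSpace ℝ (Fin m)) : MeasurableSet (polarAt S z) :=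
  (isClosed_polarAt S z).measurableSet

/-- `(n + 2)^(n + 2) ≤ 4 (n + 1)^(n + 2)`, that is `(1 + 1 / k)^(k + 1) ≤ 4` for `k = n + 1`. -/
theorem succ_step (n : ℕ) : ((n : ℝ) + 2) ^ (n + 2) ≤ 4 * ((n : ℝ) + 1) ^ (n + 2) := by
  rcases Nat.lt_or_ge n 2 with h | h
  · interval_cases n
    · norm_num
    · norm_num
  · have hn : (2 : ℝ) ≤ n := by exact_mod_cast h
    have hpos : (0 : ℝ) < (n : ℝ) + 1 := by positivity
    have hx0 : 0 < 1 / ((n : ℝ) + 1) := by positivity
    have hx3 : 1 / ((n : ℝ) + 1) ≤ 1 / 3 :=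
      one_div_le_one_div_of_le (by norm_num) (by linarith)
    have e1 : (n : ℝ) + 2 = ((n : ℝ) + 1) * (1 + 1 / ((n : ℝ) + 1)) := by
      field_simp
      ring
    have h1 : (1 + 1 / ((n : ℝ) + 1)) ^ (n + 1) ≤ Real.exp 1 := by
      have h2 : 1 + 1 / ((n : ℝ) + 1) ≤ Real.exp (1 / ((n : ℝ) + 1)) := by
        linarith [Real.add_one_le_exp (1 / ((n : ℝ) + 1))]
      calc (1 + 1 / ((n : ℝ) + 1)) ^ (n + 1)
          ≤ (Real.exp (1 / ((n : ℝ) + 1))) ^ (n + 1) :=
            pow_le_pow_left₀ (by positivity) h2 _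
        _ = Real.exp (((n + 1 : ℕ) : ℝ) * (1 / ((n : ℝ) + 1))) :=
            (Real.exp_nat_mul _ (n + 1)).symm
        _ = Real.exp 1 := by
            congr 1
            push_cast
            field_simp
    have he : Real.exp 1 < 2.7182818286 := Real.exp_one_lt_d9
    have h3 : (1 + 1 / ((n : ℝ) + 1)) ^ (n + 2) ≤ 4 := by
      calc (1 + 1 / ((n : ℝ) + 1)) ^ (n + 2)
          = (1 + 1 / ((n : ℝ) + 1)) ^ (n + 1) * (1 + 1 / ((n : ℝ) + 1)) := pow_succ _ _
        _ ≤ Real.exp 1 * (1 + 1 / ((n : ℝ) + 1)) :=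
            mul_le_mul_of_nonneg_right h1 (by positivity)
        _ ≤ 2.7182818286 * (1 + 1 / 3) :=
            mul_le_mul he.le (by linarith) (by positivity) (by norm_num)
        _ ≤ 4 := by norm_num
    rw [e1, mul_pow]
    calc ((n : ℝ) + 1) ^ (n + 2) * (1 + 1 / ((n : ℝ) + 1)) ^ (n + 2)
        ≤ ((n : ℝ) + 1) ^ (n + 2) * 4 := mul_le_mul_of_nonneg_left h3 (by positivity)
      _ = 4 * ((n : ℝ) + 1) ^ (n + 2) := by ring

theorem succ_pow_le_four_pow_factorial (n : ℕ) :
    ((n : ℝ) + 1) ^ (n + 1) ≤ 4 ^ n * (n.factorial : ℝ) := by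
  induction n with
  | zero => norm_num
  | succ n ih =>
    have key : ((n : ℝ) + 2) ^ (n + 2) ≤ 4 ^ (n + 1) * ((n + 1).factorial : ℝ) := by
      calc ((n : ℝ) + 2) ^ (n + 2) ≤ 4 * ((n : ℝ) + 1) ^ (n + 2) := succ_step n
        _ = 4 * ((n : ℝ) + 1) * ((n : ℝ) + 1) ^ (n + 1) := by ring
        _ ≤ 4 * ((n : ℝ) + 1) * (4 ^ n * (n.factorial : ℝ)) :=
            mul_le_mul_of_nonneg_left ih (by positivity)
        _ = 4 ^ (n + 1) * ((n + 1).factorial : ℝ) := by
            rw [Nat.factorial_succ]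
            push_cast
            ring
    have e : ((n + 1 : ℕ) : ℝ) + 1 = (n : ℝ) + 2 := by
      push_cast
      ring
    rw [e]
    exact key

end Vale.Agent.Lib.P248.H22Y
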