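import Mathlib
import Vale.Agent.Lib.P248.helper37.Q2Defs

/-!
P248, pool piece J9 (second copy): the part of the polar of an admissible pair with exactly `k`
negative coordinates has volume at least `Om k (tree) / (k! * m! * ∏ z)`.

`polK_lower_of` is the statement of the job with the six leaf facts it uses (`adm_sec`,
`vT_dim_zero`, `volume_posZ_ne_top`, `polK_zero`, `polK_count`, `polK_piece`) as explicit
hypotheses, so this file needs no other leaf file.
-/

open MeasureTheory Set

namespace Vale.Agent.Lib.P248.H22Q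

open Vale.Agent.Lib.P248.H37 Vale.Agent.Lib.P248.H37Q

theorem ofReal_sum_le' {ι : Type*} (s : Finset ι) (f : ι → ℝ) :
    ENNReal.ofReal (∑ i ∈ s, f i) ≤ ∑ i ∈ s, ENNReal.ofReal (f i) := by
  classical
  induction s using Finset.induction_on with
  | empty => simp
  | insert a s ha ih =>
    rw [Finset.sum_insert ha, Finset.sum_insert ha]
    exact ENNReal.ofReal_add_le.trans (add_le_add le_rfl ih)

theorem polK_lower_of
    (hsec : ∀ (n : ℕ) (A : Set (Fin (n + 1) → ℝ)) (z : Fin (n + 1) → ℝ), Adm A z →
      ∀ i : Fin (n + 1), Adm (sec A i) (fun k => z (i.succAbove k)))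
    (hv0 : ∀ (A : Set (Fin 0 → ℝ)) (z : Fin 0 → ℝ), vT A z = 1)
    (hfin : ∀ (m : ℕ) (A : Set (Fin m → ℝ)) (z : Fin m → ℝ), Adm A z →
      volume (posZ A z) ≠ ⊤)
    (hzero : ∀ (m : ℕ) (A : Set (Fin m → ℝ)) (z : Fin m → ℝ), polK A z 0 = posZ A z)
    (hcount : ∀ (m : ℕ) (A : Set (Fin m → ℝ)) (z : Fin m → ℝ) (k : ℕ),
      (k : ENNReal) * volume (polK A z k) = ∑ i, volume (polK A z k ∩ {y | y i < 0}))
    (hpiece : ∀ (n : ℕ) (A : Set (Fin (n + 1) → ℝ)) (z : Fin (n + 1) → ℝ), Adm A z →
      ∀ (i : Fin (n + 1)) (k : ℕ),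
      ENNReal.ofReal (1 / (((n : ℝ) + 1) * z i)) *
          volume (polK (sec A i) (fun j => z (i.succAbove j)) k) ≤
        volume (polK A z (k + 1) ∩ {y | y i < 0})) :
    ∀ (m : ℕ) (A : Set (Fin m → ℝ)) (z : Fin m → ℝ), Adm A z → ∀ k : ℕ,
      ENNReal.ofReal ((tree m A z).Om k / ((k.factorial : ℝ) * (m.factorial : ℝ) * ∏ i, z i)) ≤
        volume (polK A z k) := by
  intro m
  induction m with
  | zero =>
    intro A z h k
    cases k with
    | zero =>
      rw [hzero 0 A z]
      have e1 : (tree 0 A z).Om 0 = 1 := rfl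
      have e2 : ENNReal.ofReal (vT A z) = volume (posZ A z) :=
        ENNReal.ofReal_toReal (hfin 0 A z h)
      rw [e1, ← e2, hv0 A z]
      apply ENNReal.ofReal_le_ofReal
      simp
    | succ k =>
      have e1 : (tree 0 A z).Om (k + 1) = 0 := rfl
      rw [e1, zero_div, ENNReal.ofReal_zero]
      exact zero_le
  | succ n ih =>
    intro A z h k
    have hzpos : ∀ i, 0 < z i := h.pos
    have hprod : 0 < ∏ i, z i := Finset.prod_pos fun i _ => hzpos i
    have hn1 : (((n + 1).factorial : ℕ) : ℝ) ≠ 0 := by
      exact_mod_cast (Nat.factorial_pos (n + 1)).ne'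
    cases k with
    | zero =>
      rw [hzero (n + 1) A z]
      have e1 : (tree (n + 1) A z).Om 0
          = ((n + 1).factorial : ℝ) * vT A z * ∏ i, z i := rfl
      have e2 : ENNReal.ofReal (vT A z) = volume (posZ A z) :=
        ENNReal.ofReal_toReal (hfin (n + 1) A z h)
      rw [e1, ← e2]
      apply ENNReal.ofReal_le_ofReal
      apply le_of_eq
      rw [Nat.factorial_zero, Nat.cast_one, one_mul]
      have hp : (∏ i, z i) ≠ 0 := hprod.ne'
      field_simp
    | succ k =>
      have hk : ((k.factorial : ℕ) : ℝ) ≠ 0 := by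
        exact_mod_cast (Nat.factorial_pos k).ne'
      have hn : ((n.factorial : ℕ) : ℝ) ≠ 0 := by
        exact_mod_cast (Nat.factorial_pos n).ne'
      have hc := hcount (n + 1) A z (k + 1)
      have e1 : (tree (n + 1) A z).Om (k + 1)
          = ∑ i, (tree n (sec A i) (fun j => z (i.succAbove j))).Om k := rfl
      have hi : ∀ i : Fin (n + 1),
          ENNReal.ofReal ((tree n (sec A i) (fun j => z (i.succAbove j))).Om k
              / ((k.factorial : ℝ) * ((n + 1).factorial : ℝ) * ∏ j, z j))
            ≤ volume (polK A z (k + 1) ∩ {y | y i < 0}) := by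
        intro i
        have h1 := ih (sec A i) (fun j => z (i.succAbove j)) (hsec n A z h i) k
        have h2 := hpiece n A z h i k
        have hzi : 0 < z i := hzpos i
        have hprodi : 0 < ∏ j, z (i.succAbove j) := Finset.prod_pos fun j _ => hzpos _
        have hsplit : ∏ j, z j = z i * ∏ j, z (i.succAbove j) := Fin.prod_univ_succAbove z i
        have hnn : (0 : ℝ) ≤ 1 / (((n : ℝ) + 1) * z i) :=
          div_nonneg zero_le_one (mul_nonneg (by positivity) hzi.le)
        have e3 : (tree n (sec A i) (fun j => z (i.succAbove j))).Om k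
              / ((k.factorial : ℝ) * ((n + 1).factorial : ℝ) * ∏ j, z j)
            = 1 / (((n : ℝ) + 1) * z i)
              * ((tree n (sec A i) (fun j => z (i.succAbove j))).Om k
                / ((k.factorial : ℝ) * (n.factorial : ℝ) * ∏ j, z (i.succAbove j))) := by
          rw [hsplit, Nat.factorial_succ n]
          push_cast
          have hzi' : z i ≠ 0 := hzi.ne'
          have hpi' : (∏ j, z (i.succAbove j)) ≠ 0 := hprodi.ne'
          have hn1' : (n : ℝ) + 1 ≠ 0 := by positivity
          field_simp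
        rw [e3, ENNReal.ofReal_mul hnn]
        exact (mul_le_mul' le_rfl h1).trans h2
      have hsum : ENNReal.ofReal
            ((∑ i, (tree n (sec A i) (fun j => z (i.succAbove j))).Om k)
              / ((k.factorial : ℝ) * ((n + 1).factorial : ℝ) * ∏ j, z j))
          ≤ ((k + 1 : ℕ) : ENNReal) * volume (polK A z (k + 1)) := by
        rw [hc, Finset.sum_div]
        exact (ofReal_sum_le' _ _).trans (Finset.sum_le_sum fun i _ => hi i)
      rw [e1]
      have e4 : (∑ i, (tree n (sec A i) (fun j => z (i.succAbove j))).Om k)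
            / (((k + 1).factorial : ℝ) * ((n + 1).factorial : ℝ) * ∏ j, z j)
          = ((∑ i, (tree n (sec A i) (fun j => z (i.succAbove j))).Om k)
              / ((k.factorial : ℝ) * ((n + 1).factorial : ℝ) * ∏ j, z j))
            / (((k + 1 : ℕ) : ℝ)) := by
        rw [Nat.factorial_succ k]
        push_cast
        have hp : (∏ i, z i) ≠ 0 := hprod.ne'
        have hk1 : (k : ℝ) + 1 ≠ 0 := by positivity
        field_simp
      rw [e4, ENNReal.ofReal_div_of_pos (Nat.cast_pos.mpr (Nat.succ_pos k)),
        ENNReal.ofReal_natCast]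
      exact ENNReal.div_le_of_le_mul' hsum

end Vale.Agent.Lib.P248.H22Q
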